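/-
P235-ST (helper626).  Gluing a metric graph to an edge of another one.
-/
import Vale.Agent.P235.H105.Sum
import Vale.Agent.P235.R2.H598.Clos

set_option linter.all false
set_option autoImplicit false

namespace Vale.Agent.P235.ST.H626

open Vale.Agent.P235

section glue

variable {V W : Type} {G : SimpleGraph V} {H : SimpleGraph W} {a b : V} {s t : W}

/-- the vertices of the glued graph -/
abbrev GV (V : Type) {W : Type} (s t : W) : Type := V ⊕ {y : W // y ≠ s ∧ y ≠ t}

open Classical in
/-- the second graph inside the glued one -/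
noncomputable def i2 (a b : V) (s t : W) (y : W) : GV V s t :=
  if h : y ≠ s ∧ y ≠ t then Sum.inr ⟨y, h⟩ else if y = s then Sum.inl a else Sum.inl b

theorem i2_s : i2 a b s t s = Sum.inl a := by simp [i2]

theorem i2_t (hst : s ≠ t) : i2 a b s t t = Sum.inl b := by simp [i2, hst.symm]

theorem i2_r {y : W} (h : y ≠ s ∧ y ≠ t) : i2 a b s t y = Sum.inr ⟨y, h⟩ := by simp [i2, h]

theorem i2_inj (hab : a ≠ b) (hst : s ≠ t) : Function.Injective (i2 a b s t) := by
  intro x y h
  by_cases hx : x ≠ s ∧ x ≠ t
  · by_cases hy : y ≠ s ∧ y ≠ t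
    · rw [i2_r hx, i2_r hy] at h
      simpa using h
    · rw [i2_r hx] at h
      simp only [i2, hy, dite_false] at h
      split_ifs at h
  · by_cases hy : y ≠ s ∧ y ≠ t
    · rw [i2_r hy] at h
      simp only [i2, hx, dite_false] at h
      split_ifs at h
    · have hx' : x = s ∨ x = t := by tauto
      have hy' : y = s ∨ y = t := by tauto
      rcases hx' with rfl | rfl <;> rcases hy' with rfl | rfl
      · rfl
      · rw [i2_s, i2_t hst] at h
        exact absurd (Sum.inl.inj h) hab
      · rw [i2_s, i2_t hst] at h
        exact absurd (Sum.inl.inj h).symm hab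
      · rfl

/-- the glued graph -/
def GG (G : SimpleGraph V) (H : SimpleGraph W) (a b : V) (s t : W) : SimpleGraph (GV V s t) where
  Adj x y := (∃ u v, G.Adj u v ∧ x = Sum.inl u ∧ y = Sum.inl v) ∨
    ∃ u v, H.Adj u v ∧ x = i2 a b s t u ∧ y = i2 a b s t v ∧ x ≠ y
  symm := ⟨fun x y h => by
    rcases h with ⟨u, v, h, h1, h2⟩ | ⟨u, v, h, h1, h2, h3⟩
    · exact Or.inl ⟨v, u, h.symm, h2, h1⟩
    · exact Or.inr ⟨v, u, h.symm, h2, h1, h3.symm⟩⟩
  loopless := ⟨fun x h => by
    rcases h with ⟨u, v, h, h1, h2⟩ | ⟨u, v, h, h1, h2, h3⟩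
    · rw [h1] at h2; exact h.ne (Sum.inl.inj h2)
    · exact h3 rfl⟩

/-- the glued metric -/
noncomputable def gd (d : V → V → ℝ) (e : W → W → ℝ) (a b : V) (s t : W) :
    GV V s t → GV V s t → ℝ
  | .inl x, .inl y => d x y
  | .inr x, .inr y => e x y
  | .inl x, .inr y => min (d x a + e s y) (d x b + e t y)
  | .inr y, .inl x => min (d x a + e s y) (d x b + e t y)

variable {d : V → V → ℝ} {e : W → W → ℝ}

theorem gd_met (hd : IsMet d) (he : IsMet e) (h : d a b = e s t) :
    IsMet (gd d e a b s t) := by
  refine ⟨?_, ?_, ?_, ?_⟩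
  · rintro (x | x)
    · exact hd.self x
    · exact he.self x
  · rintro (x | x) (y | y) hxy
    · exact hd.pos x y (fun h => hxy (by rw [h]))
    · have h1 := hd.nonneg x a
      have h2 := hd.nonneg x b
      have h3 := he.pos s y (fun h => y.2.1 h.symm)
      have h4 := he.pos t y (fun h => y.2.2 h.symm)
      exact lt_min (by linarith) (by linarith)
    · have h1 := hd.nonneg y a
      have h2 := hd.nonneg y b
      have h3 := he.pos s x (fun h => x.2.1 h.symm)
      have h4 := he.pos t x (fun h => x.2.2 h.symm)
      exact lt_min (by linarith) (by linarith)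
    · exact he.pos x y (fun h => hxy (by rw [Subtype.ext h]))
  · rintro (x | x) (y | y)
    · exact hd.symm x y
    · rfl
    · rfl
    · exact he.symm x y
  · rintro (x | x) (y | y) (z | z)
    · exact hd.tri x y z
    · show min (d x a + e s z) (d x b + e t z) ≤ d x y + min (d y a + e s z) (d y b + e t z)
      have h1 := hd.tri x y a
      have h2 := hd.tri x y b
      rcases min_choice (d y a + e s z) (d y b + e t z) with h3 | h3 <;> rw [h3]
      · exact (min_le_left _ _).trans (by linarith)
      · exact (min_le_right _ _).trans (by linarith)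
    · show d x z ≤ min (d x a + e s y) (d x b + e t y) + min (d z a + e s y) (d z b + e t y)
      have h1 := hd.tri x a z
      have h2 := hd.tri x b z
      have h3 := hd.tri x a b
      have h4 := hd.tri x b a
      have h5 := hd.symm a z
      have h6 := hd.symm b z
      have h7 := he.nonneg s y
      have h8 := he.nonneg t y
      have h9 := he.tri s y t
      have h10 := he.symm y t
      have h11 := hd.symm b a
      rcases min_choice (d x a + e s y) (d x b + e t y) with h | h <;>
      rcases min_choice (d z a + e s y) (d z b + e t y) with h' | h' <;> rw [h, h'] <;> linarith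
    · show min (d x a + e s z) (d x b + e t z) ≤ min (d x a + e s y) (d x b + e t y) + e y z
      have h1 := he.tri s y z
      have h2 := he.tri t y z
      rcases min_choice (d x a + e s y) (d x b + e t y) with h3 | h3 <;> rw [h3]
      · exact (min_le_left _ _).trans (by linarith)
      · exact (min_le_right _ _).trans (by linarith)
    · show min (d z a + e s x) (d z b + e t x) ≤ min (d y a + e s x) (d y b + e t x) + d y z
      have h1 := hd.tri z y a
      have h2 := hd.tri z y b
      have h4 := hd.symm z y
      rcases min_choice (d y a + e s x) (d y b + e t x) with h3 | h3 <;> rw [h3]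
      · exact (min_le_left _ _).trans (by linarith)
      · exact (min_le_right _ _).trans (by linarith)
    · show e x z ≤ min (d y a + e s x) (d y b + e t x) + min (d y a + e s z) (d y b + e t z)
      have h1 := he.tri x s z
      have h2 := he.tri x t z
      have h3 := he.tri x s t
      have h4 := he.tri x t s
      have h5 := he.symm s x
      have h6 := he.symm t x
      have h7 := hd.nonneg y a
      have h8 := hd.nonneg y b
      have h9 := hd.tri a y b
      have h10 := hd.symm y a
      have h11 := he.symm t s
      rcases min_choice (d y a + e s x) (d y b + e t x) with h | h <;>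
      rcases min_choice (d y a + e s z) (d y b + e t z) with h' | h' <;> rw [h, h'] <;> linarith
    · show min (d z a + e s x) (d z b + e t x) ≤ e x y + min (d z a + e s y) (d z b + e t y)
      have h1 := he.tri s y x
      have h2 := he.tri t y x
      have h4 := he.symm y x
      rcases min_choice (d z a + e s y) (d z b + e t y) with h3 | h3 <;> rw [h3]
      · exact (min_le_left _ _).trans (by linarith)
      · exact (min_le_right _ _).trans (by linarith)
    · exact he.tri x y z

theorem gd_i2 (hd : IsMet d) (he : IsMet e) (hst : s ≠ t) (h : d a b = e s t) (x y : W) :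
    gd d e a b s t (i2 a b s t x) (i2 a b s t y) = e x y := by
  have key : ∀ x : W, ∀ y : W, (y ≠ s ∧ y ≠ t) → (x = s ∨ x = t) →
      gd d e a b s t (i2 a b s t x) (i2 a b s t y) = e x y := by
    rintro x y hy (rfl | rfl)
    · rw [i2_s, i2_r hy]
      show min (d a a + e x y) (d a b + e t y) = e x y
      rw [hd.self, zero_add, h]
      exact min_eq_left (he.tri x t y)
    · rw [i2_t hst, i2_r hy]
      show min (d b a + e s y) (d b b + e x y) = e x y
      rw [hd.self, zero_add, hd.symm b a, h, he.symm s x]
      exact min_eq_right (he.tri x s y)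
  have hsymm := (gd_met hd he h).symm
  by_cases hx : x ≠ s ∧ x ≠ t
  · by_cases hy : y ≠ s ∧ y ≠ t
    · rw [i2_r hx, i2_r hy]; rfl
    · rw [hsymm, he.symm]
      exact key y x hx (by tauto)
  · have hx' : x = s ∨ x = t := by tauto
    by_cases hy : y ≠ s ∧ y ≠ t
    · exact key x y hy hx'
    · have hy' : y = s ∨ y = t := by tauto
      rcases hx' with rfl | rfl <;> rcases hy' with rfl | rfl
      · rw [i2_s]
        show d a a = _
        rw [hd.self, he.self]
      · rw [i2_s, i2_t hst]; exact h
      · rw [i2_s, i2_t hst]
        show d b a = _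
        rw [hd.symm, h, he.symm]
      · rw [i2_t hst]
        show d b b = _
        rw [hd.self, he.self]

theorem gd_gen (hd : IsMet d) (he : IsMet e) (hG : Gen G d) (hH : Gen H e) (hab : a ≠ b)
    (hst : s ≠ t) (h : d a b = e s t) : Gen (GG G H a b s t) (gd d e a b s t) := by
  intro f hf
  have h1 : ∀ x y : V, |f (.inl x) - f (.inl y)| ≤ d x y := hG (fun x => f (.inl x))
    fun u v huv => hf _ _ (Or.inl ⟨u, v, huv, rfl, rfl⟩)
  have h2 : ∀ x y : W, |f (i2 a b s t x) - f (i2 a b s t y)| ≤ e x y :=
    hH (fun x => f (i2 a b s t x)) fun u v huv => by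
      have := hf (i2 a b s t u) (i2 a b s t v) (Or.inr ⟨u, v, huv, rfl, rfl,
        fun h => huv.ne (i2_inj hab hst h)⟩)
      rwa [gd_i2 hd he hst h] at this
  have h3 : ∀ (x : V) (y : {y : W // y ≠ s ∧ y ≠ t}), |f (.inl x) - f (.inr y)| ≤
      min (d x a + e s y) (d x b + e t y) := by
    intro x y
    have a1 := h1 x a
    have a2 := h1 x b
    have a3 := h2 s y
    have a4 := h2 t y
    rw [i2_s, i2_r y.2] at a3
    rw [i2_t hst, i2_r y.2] at a4
    refine le_min ?_ ?_
    · refine le_trans ?_ (add_le_add a1 a3)
      exact abs_sub_le _ _ _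
    · refine le_trans ?_ (add_le_add a2 a4)
      exact abs_sub_le _ _ _
  rintro (x | x) (y | y)
  · exact h1 x y
  · exact h3 x y
  · rw [abs_sub_comm]; exact h3 y x
  · have := h2 x y
    rwa [i2_r x.2, i2_r y.2] at this

end glue

end Vale.Agent.P235.ST.H626
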