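/-
P235-ST (helper626).  A class of graphs which is closed under gluing along edges and has bounded
distortion is edge-exact with the same constant.
-/
import Vale.Agent.P235.ST.H626.Glue

set_option linter.all false
set_option autoImplicit false

namespace Vale.Agent.P235.ST.H626

open Vale.Agent.P235 Vale.Agent.P235.R2.H598

/-- closed under gluing two graphs along an edge -/
def GlueClosed (Q : ∀ (V : Type), SimpleGraph V → Prop) : Prop :=
  ∀ (V W : Type) [Finite V] [Finite W] (G : SimpleGraph V) (H : SimpleGraph W) (a b : V)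
    (s t : W), G.Adj a b → H.Adj s t → Q V G → Q W H → Q (GV V s t) (GG G H a b s t)

/-- nonexpansive `L₁` semimetrics which shrink at most by `c` -/
def Feas {V : Type} (c : ℝ) (d F : V → V → ℝ) : Prop :=
  IsL1 F ∧ (∀ x y, c * d x y ≤ F x y) ∧ ∀ x y, F x y ≤ d x y

theorem isMet_smul {V : Type} {d : V → V → ℝ} (hd : IsMet d) {r : ℝ} (hr : 0 < r) :
    IsMet (fun x y => r * d x y) := by
  refine ⟨fun x => ?_, fun x y h => mul_pos hr (hd.pos x y h), fun x y => ?_, fun x y z => ?_⟩
  · show r * d x x = 0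
    rw [hd.self, mul_zero]
  · show r * d x y = r * d y x
    rw [hd.symm]
  · show r * d x z ≤ r * d x y + r * d y z
    rw [← mul_add]
    exact mul_le_mul_of_nonneg_left (hd.tri x y z) hr.le

theorem gen_smul {V : Type} {G : SimpleGraph V} {d : V → V → ℝ} (hG : Gen G d) {r : ℝ}
    (hr : 0 < r) : Gen G (fun x y => r * d x y) := by
  intro f hf x y
  have h := hG (fun x => f x / r) (fun u v huv => by
    rw [← sub_div, abs_div, abs_of_pos hr, div_le_iff₀ hr, mul_comm]
    exact hf u v huv) x y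
  rw [← sub_div, abs_div, abs_of_pos hr, div_le_iff₀ hr, mul_comm] at h
  exact h

theorem isL1_comap {V W : Type} {F : V → V → ℝ} (hF : IsL1 F) (i : W → V) :
    IsL1 (fun x y => F (i x) (i y)) := by
  obtain ⟨ι, hι, w, c, hw, h⟩ := hF
  exact ⟨ι, hι, w, fun j x => c j (i x), hw, fun x y => h _ _⟩

theorem Feas.comap {V W : Type} {c : ℝ} {d F : V → V → ℝ} {e : W → W → ℝ} (h : Feas c d F)
    (i : W → V) (hi : ∀ x y, d (i x) (i y) = e x y) : Feas c e (fun x y => F (i x) (i y)) :=
  ⟨isL1_comap h.1 i, fun x y => by rw [← hi]; exact h.2.1 _ _,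
    fun x y => by rw [← hi]; exact h.2.2 _ _⟩

/-- the value of feasible semimetrics on some edge is at most `θ` times the length -/
structure Wit (Q : ∀ (V : Type), SimpleGraph V → Prop) (c θ : ℝ) (V : Type) (G : SimpleGraph V)
    (d : V → V → ℝ) (s t : V) : Prop where
  fin : Finite V
  mem : Q V G
  met : IsMet d
  gen : Gen G d
  adj : G.Adj s t
  le : ∀ F, Feas c d F → F s t ≤ θ * d s t

variable {Q : ∀ (V : Type), SimpleGraph V → Prop} {c : ℝ}

/-- gluing copies of a witness to the edges of a list -/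
theorem replace (hQ : GlueClosed Q) {θ : ℝ} {W : Type} {H : SimpleGraph W} {e : W → W → ℝ}
    {s t : W} (hw : Wit Q c θ W H e s t) {V : Type} [Finite V] {G : SimpleGraph V}
    {d : V → V → ℝ} (hG : Q V G) (hd : IsMet d) (hg : Gen G d) :
    ∀ T : List (V × V), (∀ p ∈ T, G.Adj p.1 p.2) →
      ∃ (V' : Type) (G' : SimpleGraph V') (d' : V' → V' → ℝ) (i : V → V'), Finite V' ∧
        Q V' G' ∧ IsMet d' ∧ Gen G' d' ∧ (∀ x y, d' (i x) (i y) = d x y) ∧
        (∀ x y, G.Adj x y → G'.Adj (i x) (i y)) ∧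
        ∀ F, Feas c d' F → ∀ p ∈ T, F (i p.1) (i p.2) ≤ θ * d p.1 p.2 := by
  intro T
  induction T with
  | nil =>
    intro _
    exact ⟨V, G, d, id, inferInstance, hG, hd, hg, fun _ _ => rfl, fun _ _ h => h,
      fun F _ p hp => absurd hp (by simp)⟩
  | cons q T ih =>
    intro hT
    obtain ⟨V', G', d', i, hfin, hQ', hd', hg', hi, ha, hF⟩ :=
      ih (fun p hp => hT p (List.mem_cons_of_mem _ hp))
    obtain ⟨a, b⟩ := q
    have hab : G.Adj a b := hT (a, b) (by simp)
    have hab' : G'.Adj (i a) (i b) := ha a b hab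
    have hst : s ≠ t := hw.adj.ne
    have := hw.fin
    have he0 : 0 < e s t := hw.met.pos s t hst
    have hd0 : 0 < d a b := hd.pos a b hab.ne
    set r : ℝ := d a b / e s t with hr
    have hr0 : 0 < r := div_pos hd0 he0
    have hr1 : r * e s t = d a b := by rw [hr]; field_simp
    have he' : IsMet (fun x y => r * e x y) := isMet_smul hw.met hr0
    have hge' : Gen H (fun x y => r * e x y) := gen_smul hw.gen hr0
    have hlen : d' (i a) (i b) = r * e s t := by rw [hi, hr1]
    have hmet := gd_met (s := s) (t := t) (a := i a) (b := i b) hd' he' hlen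
    have hgen := gd_gen (s := s) (t := t) (a := i a) (b := i b) hd' he' hg' hge' hab'.ne hst hlen
    refine ⟨GV V' s t, GG G' H (i a) (i b) s t,
      gd d' (fun x y => r * e x y) (i a) (i b) s t, fun x => .inl (i x), inferInstance,
      hQ V' W G' H (i a) (i b) s t hab' hw.adj hQ' hw.mem, hmet, hgen, fun x y => hi x y,
      fun x y h => Or.inl ⟨i x, i y, ha x y h, rfl, rfl⟩, ?_⟩
    intro F hFF p hp
    rcases List.mem_cons.1 hp with rfl | hp
    · -- the new copy
      have h1 : Feas c (fun x y => r * e x y)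
          (fun x y => F (i2 (i a) (i b) s t x) (i2 (i a) (i b) s t y)) :=
        hFF.comap _ fun x y => gd_i2 hd' he' hst hlen x y
      have h2 : Feas c e (fun x y => r⁻¹ * F (i2 (i a) (i b) s t x) (i2 (i a) (i b) s t y)) := by
        refine ⟨h1.1.smul (inv_pos.2 hr0).le, fun x y => ?_, fun x y => ?_⟩
        · rw [le_inv_mul_iff₀ hr0]
          have := h1.2.1 x y
          linarith
        · rw [inv_mul_le_iff₀ hr0]
          exact h1.2.2 x y
      have h3 := hw.le _ h2
      simp only [i2_s, i2_t hst] at h3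
      rw [inv_mul_le_iff₀ hr0] at h3
      show F (.inl (i a)) (.inl (i b)) ≤ θ * d a b
      rw [← hr1]
      linarith
    · exact hF (fun x y => F (.inl x) (.inl y)) (hFF.comap _ fun x y => rfl) p hp

theorem wit_mul (hQ : GlueClosed Q) (hc : 0 < c) {θ θ' : ℝ} {W : Type} {H : SimpleGraph W}
    {e : W → W → ℝ} {s t : W} (hw : Wit Q c θ' W H e s t) (h0 : 0 < θ') (h1 : θ' ≤ 1)
    {V : Type} {G : SimpleGraph V} {d : V → V → ℝ} {a b : V} (hv : Wit Q c θ V G d a b) :
    ∃ (V' : Type) (G' : SimpleGraph V') (d' : V' → V' → ℝ) (a' b' : V'),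
      Wit Q c (θ * θ') V' G' d' a' b' := by
  classical
  have := hv.fin
  have : Fintype V := Fintype.ofFinite V
  obtain ⟨V', G', d', i, hfin, hQ', hd', hg', hi, ha, hF⟩ :=
    replace hQ hw hv.mem hv.met hv.gen
      ((Finset.univ.filter fun p : V × V => G.Adj p.1 p.2).toList) (by simp)
  refine ⟨V', G', d', i a, i b, hfin, hQ', hd', hg', ha a b hv.adj, ?_⟩
  intro F hFF
  have h2 : Feas c d (fun x y => θ'⁻¹ * F (i x) (i y)) := by
    have h3 := hFF.comap i hi
    have h4 : IsL1 (fun x y => θ'⁻¹ * F (i x) (i y)) := h3.1.smul (inv_pos.2 h0).le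
    refine ⟨h4, fun x y => ?_, ?_⟩
    · rw [le_inv_mul_iff₀ h0]
      refine le_trans ?_ (h3.2.1 x y)
      have h5 := mul_nonneg hc.le (hv.met.nonneg x y)
      nlinarith
    · refine h4.le_of_gen hv.gen fun u v huv => ?_
      show θ'⁻¹ * F (i u) (i v) ≤ d u v
      rw [inv_mul_le_iff₀ h0]
      exact hF F hFF (u, v) (by simpa using huv)
  have h6 := hv.le _ h2
  rw [inv_mul_le_iff₀ h0] at h6
  rw [hi]
  linarith

/-- **Blow-up lemma.** -/
theorem blow (hQ : GlueClosed Q) (hc : 0 < c) (hc1 : c ≤ 1)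
    (hex : ∀ (V : Type) [Finite V] (G : SimpleGraph V), Q V G → ∀ d : V → V → ℝ, IsMet d →
      Gen G d → ∃ F, Feas c d F)
    (V : Type) [Finite V] (G : SimpleGraph V) (hG : Q V G) : EdgeExact G c := by
  have low : ∀ (θ : ℝ) (V : Type) (G : SimpleGraph V) (d : V → V → ℝ) (s t : V),
      Wit Q c θ V G d s t → c ≤ θ := by
    intro θ V G d s t hw
    have := hw.fin
    obtain ⟨F, hF⟩ := hex V G hw.mem d hw.met hw.gen
    have h1 := hw.le F hF
    have h2 := hF.2.1 s t
    have h3 := hw.met.pos s t hw.adj.ne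
    nlinarith
  have main : ∀ (θ : ℝ) (V : Type) (G : SimpleGraph V) (d : V → V → ℝ) (s t : V),
      Wit Q c θ V G d s t → 1 ≤ θ := by
    intro θ V G d s t hw
    by_contra hlt
    push Not at hlt
    have hθ : 0 < θ := hc.trans_le (low θ V G d s t hw)
    have pow : ∀ n : ℕ, ∃ (V' : Type) (G' : SimpleGraph V') (d' : V' → V' → ℝ) (a' b' : V'),
        Wit Q c (θ ^ (n + 1)) V' G' d' a' b' := by
      intro n
      induction n with
      | zero => exact ⟨V, G, d, s, t, by simpa using hw⟩
      | succ n ih =>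
        obtain ⟨V', G', d', a', b', h'⟩ := ih
        have := wit_mul hQ hc h' (by positivity) (pow_le_one₀ hθ.le hlt.le) hw
        rwa [← pow_succ' θ (n + 1)] at this
    obtain ⟨n, hn⟩ := exists_pow_lt_of_lt_one hc hlt
    obtain ⟨V', G', d', a', b', h'⟩ := pow n
    have h1 := low _ _ _ _ _ _ h'
    have h2 : θ ^ (n + 1) ≤ θ ^ n := pow_le_pow_of_le_one hθ.le hlt.le (Nat.le_succ n)
    linarith
  intro d hd hg s t hst
  classical
  have hpos := hd.pos s t hst.ne
  obtain ⟨F, h1, h2, h3⟩ := isL1_limit (d := d)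
    (lo := fun x y => if x = s ∧ y = t then d s t else c * d x y) (fun n => by
      have hn : (0 : ℝ) < 1 / ((n : ℝ) + 1) := by positivity
      have hnot : ¬ ∀ F, Feas c d F → F s t ≤ (1 - 1 / ((n : ℝ) + 1)) * d s t := by
        intro hall
        have := main _ V G d s t ⟨inferInstance, hG, hd, hg, hst, hall⟩
        linarith
      push Not at hnot
      obtain ⟨F, hF, hlt⟩ := hnot
      refine ⟨F, hF.1, hF.2.2, fun x y => ?_⟩
      show (1 - 1 / ((n : ℝ) + 1)) * (if x = s ∧ y = t then d s t else c * d x y) ≤ F x y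
      split_ifs with h
      · rw [h.1, h.2]; exact hlt.le
      · refine le_trans ?_ (hF.2.1 x y)
        have := mul_nonneg hc.le (hd.nonneg x y)
        nlinarith)
  refine ⟨F, h1, le_antisymm (h2 s t) ?_, fun x y => ?_, h2⟩
  · have := h3 s t
    simpa using this
  · have := h3 x y
    split_ifs at this with h
    · rw [h.1, h.2]
      have h5 : c * d s t ≤ 1 * d s t := mul_le_mul_of_nonneg_right hc1 hpos.le
      rw [h.1, h.2] at this
      linarith
    · exact this

end Vale.Agent.P235.ST.H626
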