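/-
P235-ST (helper626).  Edge sums of planar graphs and of the graphs of any class which is `EdgeIso`.
-/
import Vale.Agent.P235.ST.H626.Blow
import Vale.Agent.P235.ST.H421.Surf
import Vale.Agent.P235.H206.Final
import Vale.Agent.P235.H105.Hop

set_option linter.all false
set_option autoImplicit false

namespace Vale.Agent.P235.ST.H626

open SimpleGraph Vale.Agent.P235

section glued

variable {V W : Type} {G : SimpleGraph V} {H : SimpleGraph W} {a b : V} {s t : W}

theorem glued (hab : G.Adj a b) (hst : H.Adj s t) :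
    H421.Glued (GG G H a b s t) G H (Sum.inl : V → GV V s t) (i2 a b s t) a b s t where
  injA := Sum.inl_injective
  injB := i2_inj hab.ne hst.ne
  adjA x y h := Or.inl ⟨x, y, h, rfl, rfl⟩
  adjB x y h := Or.inr ⟨x, y, h, rfl, rfl, fun e => h.ne (i2_inj hab.ne hst.ne e)⟩
  adj := by
    rintro u v (⟨x, y, h, rfl, rfl⟩ | ⟨x, y, h, rfl, rfl, -⟩)
    · exact Or.inl ⟨x, y, h, rfl, rfl⟩
    · exact Or.inr ⟨x, y, h, rfl, rfl⟩
  cov := by
    rintro (x | x)
    · exact Or.inl ⟨x, rfl⟩
    · exact Or.inr ⟨x.1, i2_r x.2⟩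
  inter := by
    intro x y h
    by_cases hy : y ≠ s ∧ y ≠ t
    · rw [i2_r hy] at h
      exact absurd h (by simp)
    · have hy' : y = s ∨ y = t := by tauto
      rcases hy' with rfl | rfl
      · rw [i2_s] at h
        exact Or.inl ⟨Sum.inl.inj h, rfl⟩
      · rw [i2_t hst.ne] at h
        exact Or.inr ⟨Sum.inl.inj h, rfl⟩
  hs := i2_s.symm
  ht := (i2_t hst.ne).symm
  stA := hab
  stB := hst

theorem gg_connected (hG : G.Connected) (hH : H.Connected) (hab : G.Adj a b) (hst : H.Adj s t) :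
    (GG G H a b s t).Connected := by
  have hg := glued hab hst
  let fA : G →g GG G H a b s t := ⟨Sum.inl, fun {x y} h => hg.adjA x y h⟩
  let fB : H →g GG G H a b s t := ⟨i2 a b s t, fun {x y} h => hg.adjB x y h⟩
  have hA : ∀ x y : V, (GG G H a b s t).Reachable (Sum.inl x) (Sum.inl y) := fun x y =>
    (hG x y).map fA
  have hB : ∀ x y : W, (GG G H a b s t).Reachable (i2 a b s t x) (i2 a b s t y) := fun x y =>
    (hH x y).map fB
  have hall : ∀ z : GV V s t, (GG G H a b s t).Reachable (Sum.inl a) z := by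
    intro z
    rcases hg.cov z with ⟨x, rfl⟩ | ⟨x, rfl⟩
    · exact hA a x
    · have := hB s x
      rwa [i2_s] at this
  have : Nonempty (GV V s t) := ⟨Sum.inl a⟩
  exact ⟨fun x y => (hall x).symm.trans (hall y)⟩

end glued

/-- connected plane graphs -/
def PlaneC (V : Type) (G : SimpleGraph V) : Prop :=
  G.Connected ∧ ∃ σ : Equiv.Perm G.Dart, PlaneMap G σ

theorem planeC_glue : GlueClosed PlaneC := by
  rintro V W _ _ G H a b s t hab hst ⟨hG, σ, hσ⟩ ⟨hH, τ, hτ⟩
  have hc := gg_connected hG hH hab hst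
  obtain ⟨ρ, hρ⟩ := H421.surf_glue (glued hab hst)
    (show SurfMap 0 G σ from ⟨hσ.fst, hσ.cyc, by have := hσ.euler; omega⟩)
    (show SurfMap 0 H τ from ⟨hτ.fst, hτ.cyc, by have := hτ.euler; omega⟩)
  exact ⟨hc, ρ, SurfMap.plane hc hρ⟩

/-- bounded distortion in the form of the cut cone -/
theorem feas_of_distortion {V : Type} [Finite V] {G : SimpleGraph V} {K : ℝ} (hK : 0 < K)
    (hG : G.Connected) (h : DistortionLE G K) {d : V → V → ℝ} (hd : IsMet d) (hg : Gen G d) :
    ∃ F, Feas (1 / K) d F := by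
  have hℓ : ∀ e ∈ G.edgeSet, 0 < lenOf d hd.symm e := by
    intro e
    induction e using Sym2.ind with
    | _ u v =>
      intro he
      exact hd.pos u v (SimpleGraph.Adj.ne he)
  have e := hg.eq_pathDist hd hG
  obtain ⟨Ω, hΩ, μ, f, hf⟩ := h _ hℓ
  rw [e] at hf
  have h1 : IsL1 (fun x y => ‖f x - f y‖) := L1S.isL1 ⟨Ω, hΩ, μ, f, fun _ _ => rfl⟩
  refine ⟨fun x y => 1 / K * ‖f x - f y‖, h1.smul (by positivity), fun x y => ?_, fun x y => ?_⟩
  · exact mul_le_mul_of_nonneg_left (hf x y).1 (by positivity)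
  · have := mul_le_mul_of_nonneg_left (hf x y).2 (by positivity : (0 : ℝ) ≤ 1 / K)
    have e2 : 1 / K * (K * d x y) = d x y := by field_simp
    rw [e2] at this
    exact this

/-- **A class of connected graphs which is closed under gluing along edges and has `c₁ ≤ K` is
`EdgeIso K`.** -/
theorem edgeIso_of_glueClosed {Q : ∀ (V : Type), SimpleGraph V → Prop} (hQ : GlueClosed Q)
    (hconn : ∀ (V : Type) (G : SimpleGraph V), Q V G → G.Connected) {K : ℝ} (hK : 1 ≤ K)
    (h : ∀ (V : Type) [Finite V] (G : SimpleGraph V), Q V G → DistortionLE G K)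
    (V : Type) [Finite V] (G : SimpleGraph V) (hG : Q V G) : EdgeIso G K := by
  have hK0 : 0 < K := by linarith
  have h1 : EdgeExact G (1 / K) := blow hQ (by positivity) (by rw [div_le_one hK0]; exact hK)
    (fun V _ G hG d hd hg => feas_of_distortion hK0 (hconn V G hG) (h V G hG) hd hg) V G hG
  have h2 := h1.edgeIso (by positivity) (hconn V G hG)
  rwa [one_div_one_div] at h2

/-- planar graphs are `EdgeIso` -/
theorem planar_edgeIso {K : ℝ} (hK : 1 ≤ K)
    (hP : ∀ (V : Type) [Finite V] (G : SimpleGraph V), G.Connected →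
      (∃ σ : Equiv.Perm G.Dart, PlaneMap G σ) → DistortionLE G K)
    (V : Type) [Finite V] (G : SimpleGraph V) (hG : G.Connected)
    (hσ : ∃ σ : Equiv.Perm G.Dart, PlaneMap G σ) : EdgeIso G K :=
  edgeIso_of_glueClosed planeC_glue (fun _ _ h => h.1) hK (fun V _ G h => hP V G h.1 h.2) V G
    ⟨hG, hσ⟩

theorem EdgeIso.mono' {V : Type} {G : SimpleGraph V} {D D' : ℝ} (h : EdgeIso G D)
    (hD : D ≤ D') : EdgeIso G D' := by
  intro ℓ hℓ s t hst
  obtain ⟨Ω, hΩ, μ, f, h1, h2⟩ := h ℓ hℓ s t hst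
  exact ⟨Ω, hΩ, μ, f, h1, fun x y => ⟨(h2 x y).1, (h2 x y).2.trans
    (mul_le_mul_of_nonneg_right hD (norm_nonneg _))⟩⟩

/-- **Unlimited edge sums of planar graphs and of graphs of any class which is `EdgeIso D`.** -/
theorem planar_sums {K : ℝ} (hK : 1 ≤ K)
    (hP : ∀ (V : Type) [Finite V] (G : SimpleGraph V), G.Connected →
      (∃ σ : Equiv.Perm G.Dart, PlaneMap G σ) → DistortionLE G K)
    (P : ∀ (V : Type), SimpleGraph V → Prop) (D : ℝ)
    (hD : ∀ (V : Type) [Finite V] (G : SimpleGraph V), G.Connected → P V G → EdgeIso G D)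
    (V : Type) [Finite V] (G : SimpleGraph V) (hG : G.Connected)
    (hE : EdgeSumOf (fun V G => (G.Connected ∧ ∃ σ : Equiv.Perm G.Dart, PlaneMap G σ) ∨ P V G) G) :
    EdgeIso G (12000 * max K D) ∧ DistortionLE G (12000 * max K D) := by
  refine edgeSum_edgeIso _ (hK.trans (le_max_left _ _)) (fun V _ G hG h => ?_) V G hG hE
  rcases h with h | h
  · exact EdgeIso.mono' (planar_edgeIso hK hP V G h.1 h.2) (le_max_left _ _)
  · exact EdgeIso.mono' (hD V G hG h) (le_max_right _ _)

end Vale.Agent.P235.ST.H626
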