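/-
P235-ST (helper626).  Edge sums of planar graphs and of the graphs of `Piece3 w t`.
-/
import Vale.Agent.P235.ST.H626.Sums
import Vale.Agent.P235.H536.Spd2

set_option linter.all false
set_option autoImplicit false

namespace Vale.Agent.P235.ST.H626

open SimpleGraph Vale.Agent.P235

/-- connected planar graphs, and the graphs of `Piece3 w t` -/
def PlanePiece (w t : ℕ) (V : Type) (G : SimpleGraph V) : Prop :=
  (G.Connected ∧ ∃ σ : Equiv.Perm G.Dart, PlaneMap G σ) ∨ Piece3 w t V G

/-- **Unlimited edge sums of planar graphs, graphs of treewidth at most `3`, and graphs of pathwidth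
or shortest path depth at most `w` up to `t` deleted vertices.** -/
theorem planar_piece3
    (hP : ∃ K : ℝ, ∀ (V : Type) [Finite V] (G : SimpleGraph V), G.Connected →
      (∃ σ : Equiv.Perm G.Dart, PlaneMap G σ) → DistortionLE G K) :
    ∃ A : ℝ, ∀ (w t : ℕ) (V : Type) [Finite V] (G : SimpleGraph V), G.Connected →
      EdgeSumOf (PlanePiece w t) G →
        EdgeIso G (A * (w + Real.log (t + 2))) ∧ DistortionLE G (A * (w + Real.log (t + 2))) := by
  obtain ⟨K0, hK0⟩ := hP
  obtain ⟨B, hB⟩ := edgeSum_piece3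
  set K : ℝ := max K0 1 with hKdef
  have hK : 1 ≤ K := le_max_right _ _
  have hP' : ∀ (V : Type) [Finite V] (G : SimpleGraph V), G.Connected →
      (∃ σ : Equiv.Perm G.Dart, PlaneMap G σ) → DistortionLE G K := fun V _ G h1 h2 =>
    (hK0 V G h1 h2).mono (le_max_left _ _)
  refine ⟨12000 * max (2 * K) |B|, fun w t V _ G hG hE => ?_⟩
  have hL : (1 : ℝ) / 2 ≤ Real.log ((t : ℝ) + 2) := by
    have h1 := Real.log_two_gt_d9
    have h2 : Real.log 2 ≤ Real.log ((t : ℝ) + 2) :=
      Real.log_le_log (by norm_num) (by have : (0 : ℝ) ≤ t := Nat.cast_nonneg t; linarith)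
    linarith
  have hw : (0 : ℝ) ≤ w := Nat.cast_nonneg w
  set x : ℝ := (w : ℝ) + Real.log ((t : ℝ) + 2) with hx
  have hx2 : 1 / 2 ≤ x := by linarith
  have h := planar_sums hK hP' (Piece3 w t) (B * x)
    (fun V _ G hG h => (hB w t V G hG (EdgeSumOf.base h)).1) V G hG hE
  have h3 : 12000 * max K (B * x) ≤ 12000 * max (2 * K) |B| * x := by
    rw [mul_assoc]
    refine mul_le_mul_of_nonneg_left (max_le ?_ ?_) (by norm_num)
    · have h4 : 2 * K * x ≤ max (2 * K) |B| * x :=
        mul_le_mul_of_nonneg_right (le_max_left _ _) (by linarith)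
      nlinarith
    · refine (mul_le_mul_of_nonneg_right ((le_abs_self B).trans (le_max_right (2 * K) |B|))
        (by linarith))
  exact ⟨EdgeIso.mono' h.1 h3, h.2.mono h3⟩

end Vale.Agent.P235.ST.H626
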