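/-
P235-ST (helper626).  Treewidth at most `k` is preserved by gluing along an edge.
-/
import Vale.Agent.P235.ST.H626.Sums3
import Vale.Agent.P235.H957.Final

set_option linter.all false
set_option autoImplicit false

namespace Vale.Agent.P235.ST.H626

open SimpleGraph Vale.Agent.P235

section trees

variable {ι κ : Type} {T : SimpleGraph ι} {S : SimpleGraph κ}

theorem sum_acyclic (hT : T.IsAcyclic) (hS : S.IsAcyclic) : (T ⊕g S).IsAcyclic := by
  rw [isAcyclic_iff_forall_adj_isBridge] at *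
  have key1 : ∀ (e : Sym2 ι) (x : ι) (z : ι ⊕ κ),
      ((T ⊕g S).deleteEdges {e.map Sum.inl}).Reachable (Sum.inl x) z →
      ∃ y, z = Sum.inl y ∧ (T.deleteEdges {e}).Reachable x y := by
    rintro e x z ⟨w⟩
    have : ∀ (u v : ι ⊕ κ) (w : ((T ⊕g S).deleteEdges {e.map Sum.inl}).Walk u v),
        ∀ x, u = Sum.inl x → ∃ y, v = Sum.inl y ∧ (T.deleteEdges {e}).Reachable x y := by
      intro u v w
      induction w with
      | nil => intro x hx; exact ⟨x, hx, Reachable.refl x⟩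
      | @cons u m v h w ih =>
        rintro x rfl
        rcases m with m | m
        · obtain ⟨y, hy, hr⟩ := ih m rfl
          refine ⟨y, hy, Reachable.trans ?_ hr⟩
          rw [deleteEdges_adj] at h
          refine Adj.reachable ?_
          rw [deleteEdges_adj]
          refine ⟨by simpa using h.1, fun he => h.2 ?_⟩
          rw [Set.mem_singleton_iff] at he ⊢
          rw [← he]
          rfl
        · rw [deleteEdges_adj] at h
          exact absurd h.1 (by simp)
    exact this _ _ w x rfl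
  have key2 : ∀ (e : Sym2 κ) (x : κ) (z : ι ⊕ κ),
      ((T ⊕g S).deleteEdges {e.map Sum.inr}).Reachable (Sum.inr x) z →
      ∃ y, z = Sum.inr y ∧ (S.deleteEdges {e}).Reachable x y := by
    rintro e x z ⟨w⟩
    have : ∀ (u v : ι ⊕ κ) (w : ((T ⊕g S).deleteEdges {e.map Sum.inr}).Walk u v),
        ∀ x, u = Sum.inr x → ∃ y, v = Sum.inr y ∧ (S.deleteEdges {e}).Reachable x y := by
      intro u v w
      induction w with
      | nil => intro x hx; exact ⟨x, hx, Reachable.refl x⟩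
      | @cons u m v h w ih =>
        rintro x rfl
        rcases m with m | m
        · rw [deleteEdges_adj] at h
          exact absurd h.1 (by simp)
        · obtain ⟨y, hy, hr⟩ := ih m rfl
          refine ⟨y, hy, Reachable.trans ?_ hr⟩
          rw [deleteEdges_adj] at h
          refine Adj.reachable ?_
          rw [deleteEdges_adj]
          refine ⟨by simpa using h.1, fun he => h.2 ?_⟩
          rw [Set.mem_singleton_iff] at he ⊢
          rw [← he]
          rfl
    exact this _ _ w x rfl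
  rintro (x | x) (y | y) h
  · have hb := hT (show T.Adj x y by simpa using h)
    rw [isBridge_iff] at hb ⊢
    intro hr
    obtain ⟨z, hz, hr'⟩ := key1 s(x, y) x _ (by simpa using hr)
    exact hb (by rw [← Sum.inl.inj hz] at hr'; exact hr')
  · exact absurd h (by simp)
  · exact absurd h (by simp)
  · have hb := hS (show S.Adj x y by simpa using h)
    rw [isBridge_iff] at hb ⊢
    intro hr
    obtain ⟨z, hz, hr'⟩ := key2 s(x, y) x _ (by simpa using hr)
    exact hb (by rw [← Sum.inr.inj hz] at hr'; exact hr')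

theorem join_tree (hT : T.IsTree) (hS : S.IsTree) (m : ι) (n : κ) :
    ((T ⊕g S) ⊔ edge (Sum.inl m) (Sum.inr n) : SimpleGraph (ι ⊕ κ)).IsTree := by
  refine ⟨Connected.sum_sup_edge hT.connected hS.connected, ?_⟩
  exact IsAcyclic.sup_edge_of_not_reachable (not_reachable_sum_inl_inr _ _)
    (sum_acyclic hT.isAcyclic hS.isAcyclic)

end trees

section tw

theorem twC_glue (k : ℕ) : GlueClosed (fun V G => G.Connected ∧ TreewidthLE G k) := by
  classical
  rintro V W _ _ G H a b s t hab hst ⟨hG, ι, hι, T, B, hT, hTc, hTe, hTb, hTk⟩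
    ⟨hH, κ, hκ, S, C, hS, hSc, hSe, hSb, hSk⟩
  refine ⟨gg_connected hG hH hab hst, ι ⊕ κ, inferInstance, ?_⟩
  obtain ⟨m, hma, hmb⟩ := hTe a b hab
  obtain ⟨n, hns, hnt⟩ := hSe s t hst
  set e1 : V ↪ GV V s t := ⟨Sum.inl, Sum.inl_injective⟩ with he1
  set e2 : W ↪ GV V s t := ⟨i2 a b s t, i2_inj hab.ne hst.ne⟩ with he2
  set D : ι ⊕ κ → Finset (GV V s t) := Sum.elim (fun i => (B i).map e1) (fun j => (C j).map e2)
    with hD
  set J : SimpleGraph (ι ⊕ κ) := (T ⊕g S) ⊔ edge (Sum.inl m) (Sum.inr n) with hJ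
  have D1 : ∀ {x : V} {i : ι}, x ∈ B i → (Sum.inl x : GV V s t) ∈ D (Sum.inl i) :=
    fun {x i} h => Finset.mem_map.2 ⟨x, h, rfl⟩
  have D2 : ∀ {y : W} {j : κ}, y ∈ C j → i2 a b s t y ∈ D (Sum.inr j) :=
    fun {y j} h => Finset.mem_map.2 ⟨y, h, rfl⟩
  refine ⟨J, D, join_tree hT hS m n, ?_, ?_, ?_, ?_⟩
  · intro v
    rcases (glued hab hst).cov v with ⟨x, rfl⟩ | ⟨x, rfl⟩
    · obtain ⟨i, hi⟩ := hTc x
      exact ⟨Sum.inl i, D1 hi⟩
    · obtain ⟨j, hj⟩ := hSc x
      exact ⟨Sum.inr j, D2 hj⟩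
  · rintro u v (⟨x, y, h, rfl, rfl⟩ | ⟨x, y, h, rfl, rfl, -⟩)
    · obtain ⟨i, h1, h2⟩ := hTe x y h
      exact ⟨Sum.inl i, D1 h1, D1 h2⟩
    · obtain ⟨j, h1, h2⟩ := hSe x y h
      exact ⟨Sum.inr j, D2 h1, D2 h2⟩
  · have hA : ∀ (x : V) (v : GV V s t) (hv : (Sum.inl x : GV V s t) = v) (i i' : ι) (h : x ∈ B i)
        (h' : x ∈ B i'),
        (J.induce {z | v ∈ D z}).Reachable
          ⟨Sum.inl i, hv ▸ D1 h⟩ ⟨Sum.inl i', hv ▸ D1 h'⟩ := by
      rintro x v rfl i i' h h'
      let φ : T.induce {z | x ∈ B z} →g J.induce {z | (Sum.inl x : GV V s t) ∈ D z} :=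
        ⟨fun z => ⟨Sum.inl z.1, D1 z.2⟩, fun {p q} hpq => Or.inl hpq⟩
      exact (hTb x ⟨i, h⟩ ⟨i', h'⟩).map φ
    have hB : ∀ (y : W) (v : GV V s t) (hv : i2 a b s t y = v) (i i' : κ) (h : y ∈ C i)
        (h' : y ∈ C i'),
        (J.induce {z | v ∈ D z}).Reachable
          ⟨Sum.inr i, hv ▸ D2 h⟩ ⟨Sum.inr i', hv ▸ D2 h'⟩ := by
      rintro y v rfl i i' h h'
      let φ : S.induce {z | y ∈ C z} →g J.induce {z | i2 a b s t y ∈ D z} :=
        ⟨fun z => ⟨Sum.inr z.1, D2 z.2⟩, fun {p q} hpq => Or.inl hpq⟩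
      exact (hSb y ⟨i, h⟩ ⟨i', h'⟩).map φ
    rintro (x | y)
    · have key : ∀ (z : ι ⊕ κ) (hz : (Sum.inl x : GV V s t) ∈ D z), ∃ (i : ι) (hi : x ∈ B i),
          (J.induce {z | (Sum.inl x : GV V s t) ∈ D z}).Reachable ⟨z, hz⟩ ⟨Sum.inl i, D1 hi⟩ := by
        rintro (i | j) hz
        · obtain ⟨x', hx', hx⟩ := Finset.mem_map.1 hz
          have : x' = x := Sum.inl.inj hx
          subst this
          exact ⟨i, hx', Reachable.refl _⟩
        · obtain ⟨y, hy, hyx⟩ := Finset.mem_map.1 hz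
          have hyx' : i2 a b s t y = Sum.inl x := hyx
          have hm : x ∈ B m ∧ y ∈ C n := by
            rcases (glued hab hst).inter x y hyx'.symm with ⟨rfl, rfl⟩ | ⟨rfl, rfl⟩
            · exact ⟨hma, hns⟩
            · exact ⟨hmb, hnt⟩
          have h1 := hB y _ hyx' j n hy hm.2
          refine ⟨m, hm.1, h1.trans (Adj.reachable ?_)⟩
          show J.Adj (Sum.inr n) (Sum.inl m)
          refine Or.inr ?_
          rw [edge_adj]
          exact ⟨Or.inr ⟨rfl, rfl⟩, by simp⟩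
      rintro ⟨z, hz⟩ ⟨z', hz'⟩
      obtain ⟨i, hi, h1⟩ := key z hz
      obtain ⟨i', hi', h2⟩ := key z' hz'
      exact h1.trans ((hA x _ rfl i i' hi hi').trans h2.symm)
    · have key : ∀ (z : ι ⊕ κ) (hz : (Sum.inr y : GV V s t) ∈ D z), ∃ (j : κ) (hj : y.1 ∈ C j),
          z = Sum.inr j := by
        rintro (i | j) hz
        · obtain ⟨x', hx', hx⟩ := Finset.mem_map.1 hz
          exact absurd hx (by simp [he1])
        · obtain ⟨y', hy', hyx⟩ := Finset.mem_map.1 hz
          have hyx' : i2 a b s t y' = i2 a b s t y.1 := by rw [i2_r y.2]; exact hyx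
          have := i2_inj hab.ne hst.ne hyx'
          subst this
          exact ⟨j, hy', rfl⟩
      rintro ⟨z, hz⟩ ⟨z', hz'⟩
      obtain ⟨j, hj, rfl⟩ := key z hz
      obtain ⟨j', hj', rfl⟩ := key z' hz'
      exact hB y.1 _ (i2_r y.2) j j' hj hj'
  · rintro (i | j)
    · simpa [hD] using hTk i
    · simpa [hD] using hSk j

/-- graphs of treewidth at most `k` are `EdgeIso` -/
theorem tw_edgeIso (k : ℕ) : ∃ D : ℝ, 1 ≤ D ∧ ∀ (V : Type) [Finite V] (G : SimpleGraph V),
    G.Connected → TreewidthLE G k → EdgeIso G D := by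
  obtain ⟨C, hC⟩ := H957.tw_bounded k
  refine ⟨max C 1, le_max_right _ _, fun V _ G hG hk => ?_⟩
  exact edgeIso_of_glueClosed (twC_glue k) (fun _ _ h => h.1) (le_max_right _ _)
    (fun V _ G h => (hC V G h.1 h.2).mono (le_max_left _ _)) V G ⟨hG, hk⟩

/-- connected planar graphs, graphs of treewidth at most `k`, and the graphs of `Piece3 w t` -/
def PlaneTw (k w t : ℕ) (V : Type) (G : SimpleGraph V) : Prop :=
  (G.Connected ∧ ∃ σ : Equiv.Perm G.Dart, PlaneMap G σ) ∨ TreewidthLE G k ∨ Piece3 w t V G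

/-- **Unlimited edge sums of planar graphs, graphs of treewidth at most `k`, and graphs of pathwidth
or shortest path depth at most `w` up to `t` deleted vertices.** -/
theorem planar_tw
    (hP : ∃ K : ℝ, ∀ (V : Type) [Finite V] (G : SimpleGraph V), G.Connected →
      (∃ σ : Equiv.Perm G.Dart, PlaneMap G σ) → DistortionLE G K) (k w t : ℕ) :
    ∃ D : ℝ, ∀ (V : Type) [Finite V] (G : SimpleGraph V), G.Connected →
      EdgeSumOf (PlaneTw k w t) G → EdgeIso G D ∧ DistortionLE G D := by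
  obtain ⟨K0, hK0⟩ := hP
  obtain ⟨B, hB⟩ := edgeSum_piece3
  obtain ⟨C, hC1, hC⟩ := tw_edgeIso k
  have hP' : ∀ (V : Type) [Finite V] (G : SimpleGraph V), G.Connected →
      (∃ σ : Equiv.Perm G.Dart, PlaneMap G σ) → DistortionLE G (max K0 1) := fun V _ G h1 h2 =>
    (hK0 V G h1 h2).mono (le_max_left _ _)
  refine ⟨_, planar_sums (le_max_right K0 1) hP'
    (fun V G => TreewidthLE G k ∨ Piece3 w t V G)
    (max C (B * (w + Real.log (t + 2)))) ?_⟩
  rintro V _ G hG (h | h)
  · exact EdgeIso.mono' (hC V G hG h) (le_max_left _ _)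
  · exact EdgeIso.mono' (hB w t V G hG (EdgeSumOf.base h)).1 (le_max_right _ _)

end tw

end Vale.Agent.P235.ST.H626
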